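import Vale.Agent.P092GI.End
import Vale.Agent.P092L63.Haar
import Vale.Agent.P092L63.Loc

/-!
P092: the answer to Q1 is yes, with local fields taken as non-discrete locally compact fields and
lattices as discrete subgroups of finite Haar covolume.
-/

open MeasureTheory Vale.Agent.P092.UN Vale.Agent.P092GV Vale.Agent.P092L63

theorem Vale.Agent.Results.P092.AAHaar.result
    (I : Type) [Fintype I] (G : I → Type) [∀ i, Group (G i)] [∀ i, TopologicalSpace (G i)]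
    (h : ∀ i, LocalPts (G i) ∧ ¬ CompactSpace (G i) ∧ HasTC (G i))
    [MeasurableSpace (∀ i, G i)] [BorelSpace (∀ i, G i)] :
    IsTopologicalGroup (∀ i, G i) ∧ LocallyCompactSpace (∀ i, G i) ∧
    (∃ μ : Measure (∀ i, G i), μ.IsHaarMeasure) ∧
    ∀ μ : Measure (∀ i, G i), μ.IsHaarMeasure → μ.IsMulRightInvariant ∧
      ∀ Γ : Subgroup (∀ i, G i), (DiscreteTopology Γ → WellDef μ Γ) ∧
        (HaarLattice μ Γ ↔ IsLattice Γ) ∧ (HaarLattice μ Γ → ICC Γ → Q1 Γ) := by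
  obtain ⟨a, b, c, d⟩ := bridge I G fun i => ⟨pts_iff.1 (h i).1, (h i).2.2⟩
  exact ⟨a, b, c, fun μ hμ => ⟨(d μ hμ).1, fun Γ => ⟨((d μ hμ).2 Γ).1, ((d μ hμ).2 Γ).2,
    fun hl => Vale.Agent.P092GI.full I G (fun i => ⟨pts_iff.1 (h i).1, (h i).2⟩) Γ
      (((d μ hμ).2 Γ).2.1 hl)⟩⟩⟩
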