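import Vale.Agent.P092GI.End

/-!
P092: the answer to Q1 is yes. Every ICC lattice of a finite product of noncompact groups with
property (T), each the group of points of a connected absolutely simple algebraic group over a local
field, is stably `W*`-superrigid.
-/

open Vale.Agent.P092.UN Vale.Agent.P092GV

theorem Vale.Agent.Results.P092.AFull.result
    (I : Type) [Fintype I] (G : I → Type) [∀ i, Group (G i)] [∀ i, TopologicalSpace (G i)]
    (h : ∀ i, SimplePts (G i) ∧ ¬ CompactSpace (G i) ∧ HasTC (G i))
    (Γ : Subgroup (∀ i, G i)) (hl : IsLattice Γ) (hicc : ICC Γ) : Q1 Γ :=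
  Vale.Agent.P092GI.full I G h Γ hl hicc
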